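import Mathlib

/-!
A few sign patterns under which, for every prescribed family of vectors, a prescribed summand is
not cancelled by the others in a positive proportion of the patterns.
-/

namespace Vale.Agent.P249.Pow

open Finset

/-- Signed sum. -/
def signSum {G : Type*} [AddCommGroup G] {J : Type*} [Fintype J] (a : J → G) (s : J → Bool) : G :=
  ∑ j, bif s j then a j else -a j

lemma half_good {G : Type*} [NormedAddCommGroup G] [NormedSpace ℝ G] {J : Type*} [Fintype J] [DecidableEq J]
    (a : J → G) (j0 : J) [DecidablePred fun s => ‖a j0‖ ≤ ‖signSum a s‖] :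
    Fintype.card (J → Bool) ≤
      2 * (univ.filter fun s : J → Bool => ‖a j0‖ ≤ ‖signSum a s‖).card := by
  classical
  set B := univ.filter fun s : J → Bool => ¬ ‖a j0‖ ≤ ‖signSum a s‖
  set A := univ.filter fun s : J → Bool => ‖a j0‖ ≤ ‖signSum a s‖ with hA
  let flip : (J → Bool) → J → Bool := fun s j => if j = j0 then s j else !s j
  have hflip : Function.Injective flip := fun s t h => by
    funext j
    have := congrFun h j
    simp only [flip] at this
    split at this
    · exact this
    · simpa using this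
  have hBA : B.card ≤ A.card := by
    refine Finset.card_le_card_of_injOn flip (fun s hs => ?_) hflip.injOn
    simp only [B, Finset.coe_filter, Finset.mem_univ, true_and, Set.mem_ofPred_eq] at hs
    refine Finset.mem_filter.2 ⟨Finset.mem_univ _, ?_⟩
    by_contra h
    set e : G := bif s j0 then a j0 else -a j0 with he
    set R : G := ∑ j ∈ univ.erase j0, bif s j then a j else -a j
    have h1 : signSum a s = e + R :=
      (Finset.add_sum_erase univ _ (Finset.mem_univ j0)).symm
    have h2 : signSum a (flip s) = e - R := by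
      rw [signSum, ← Finset.add_sum_erase univ _ (Finset.mem_univ j0), sub_eq_add_neg,
        ← Finset.sum_neg_distrib]
      congr 1
      · simp [flip, he]
      · refine Finset.sum_congr rfl fun j hj => ?_
        simp only [flip, if_neg (Finset.mem_erase.1 hj).1]
        cases s j <;> simp
    have he' : ‖e‖ = ‖a j0‖ := by rw [he]; cases s j0 <;> simp
    have h3 : ‖e + e‖ ≤ ‖e + R‖ + ‖e - R‖ := by
      refine le_trans (le_of_eq ?_) (norm_add_le _ _)
      congr 1; abel
    have h4 : ‖e + e‖ = 2 * ‖e‖ := by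
      cases hs0 : s j0 <;> simp only [he, hs0, cond_false, cond_true]
      · rw [← neg_add, norm_neg, norm_neg]
        rw [← two_smul ℝ (a j0), norm_smul, Real.norm_two]
      · rw [← two_smul ℝ (a j0), norm_smul, Real.norm_two]
    rw [h1] at hs
    rw [h2] at h
    linarith [not_le.1 hs, not_le.1 h]
  have hsplit : A.card + B.card = Fintype.card (J → Bool) :=
    Finset.card_filter_add_card_filter_not _
  omega

/-- `16 (l + 1)` sign patterns suffice for at most `4 ^ l`-many families. -/
theorem exists_signs {G : Type*} [NormedAddCommGroup G] [NormedSpace ℝ G] {Q J : Type*} [Fintype Q] [Fintype J]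
    [DecidableEq J] (a : Q → J → G) (j0 : Q → J) {l : ℕ} (hQ : Fintype.card Q < 4 ^ (l + 1)) :
    ∃ ξ : Fin (16 * (l + 1)) → J → Bool, ∀ q,
      4 * (l + 1) ≤ (univ.filter fun k => ‖a q (j0 q)‖ ≤ ‖signSum (a q) (ξ k)‖).card := by
  classical
  set K := 16 * (l + 1) with hK
  set g := 4 * (l + 1) with hg
  set c : ℝ := (Fintype.card (J → Bool) : ℝ) with hc
  have hcpos : 0 < c := Nat.cast_pos.2 Fintype.card_pos
  let f : Q → (J → Bool) → ℝ := fun q s =>
    if ‖a q (j0 q)‖ ≤ ‖signSum (a q) s‖ then 1 / 4 else 1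
  have hf0 : ∀ q s, 0 ≤ f q s := fun q s => by simp only [f]; split <;> norm_num
  let good : Q → (Fin K → J → Bool) → ℕ := fun q ω =>
    (univ.filter fun k => ‖a q (j0 q)‖ ≤ ‖signSum (a q) (ω k)‖).card
  have hprod : ∀ q (ω : Fin K → J → Bool), ∏ k, f q (ω k) = (1 / 4 : ℝ) ^ good q ω := by
    intro q ω
    simp only [f]
    rw [Finset.prod_ite, Finset.prod_const, Finset.prod_const_one, mul_one]
  have hsum : ∀ q, ∑ s, f q s ≤ 5 / 8 * c := by
    intro q
    have h := half_good (a q) (j0 q)
    simp only [f]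
    rw [Finset.sum_ite, Finset.sum_const, Finset.sum_const, nsmul_eq_mul, nsmul_eq_mul, mul_one]
    have h2 := Finset.card_filter_add_card_filter_not (s := (univ : Finset (J → Bool)))
      (p := fun s => ‖a q (j0 q)‖ ≤ ‖signSum (a q) s‖)
    rw [Finset.card_univ] at h2
    rw [hc, ← h2]
    have h' : (Fintype.card (J → Bool) : ℝ) ≤
        2 * ((univ.filter fun s => ‖a q (j0 q)‖ ≤ ‖signSum (a q) s‖).card : ℝ) := by
      exact_mod_cast h
    rw [← h2] at h'
    push_cast at h' ⊢
    linarith
  by_contra hcon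
  push Not at hcon
  have hlow : (c : ℝ) ^ K * (1 / 4 : ℝ) ^ g ≤
      ∑ ω : Fin K → J → Bool, ∑ q, ∏ k, f q (ω k) := by
    calc c ^ K * (1 / 4 : ℝ) ^ g = ∑ _ω : Fin K → J → Bool, (1 / 4 : ℝ) ^ g := by
          simp [hc]
      _ ≤ _ := Finset.sum_le_sum fun ω _ => by
          obtain ⟨q, hq⟩ := hcon ω
          refine le_trans ?_ (Finset.single_le_sum (f := fun q => ∏ k, f q (ω k))
            (fun q _ => Finset.prod_nonneg fun k _ => hf0 q _) (Finset.mem_univ q))
          rw [hprod q ω]
          exact pow_le_pow_of_le_one (by norm_num) (by norm_num) hq.le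
  have hup : ∑ ω : Fin K → J → Bool, ∑ q, ∏ k, f q (ω k) ≤
      (Fintype.card Q : ℝ) * (5 / 8 * c) ^ K := by
    rw [Finset.sum_comm]
    calc ∑ q, ∑ ω : Fin K → J → Bool, ∏ k, f q (ω k) = ∑ q, (∑ s, f q s) ^ K := by
          refine Finset.sum_congr rfl fun q _ => ?_
          rw [Fintype.sum_pow]
      _ ≤ ∑ _q : Q, (5 / 8 * c) ^ K := Finset.sum_le_sum fun q _ =>
          pow_le_pow_left₀ (Finset.sum_nonneg fun s _ => hf0 q s) (hsum q) K
      _ = _ := by simp
  have hQ' : (Fintype.card Q : ℝ) < 4 ^ (l + 1) := by exact_mod_cast hQ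
  have hbig := hlow.trans hup
  rw [mul_pow, ← mul_assoc, mul_comm (c ^ K)] at hbig
  have h1 := le_of_mul_le_mul_right hbig (pow_pos hcpos K)
  rw [hg, hK, pow_mul, pow_mul] at h1
  have h2 : ((1 / 4 : ℝ) ^ 4) ^ (l + 1) < 4 ^ (l + 1) * ((5 / 8 : ℝ) ^ 16) ^ (l + 1) :=
    h1.trans_lt (mul_lt_mul_of_pos_right hQ' (by positivity))
  rw [← mul_pow] at h2
  exact absurd h2 (not_lt.2 (pow_le_pow_left₀ (by positivity) (by norm_num) (l + 1)))

end Vale.Agent.P249.Pow
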