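import Vale.Agent.P249.Pow.Window
import Vale.Agent.P249.Pow.Signs
import Vale.Agent.P249.Sub.Cell

/-!
The block part: differences of ball averages at distant windows, compressed by the lift, smoothed
again and superposed with a few sign patterns. It detects every distance above which the balls
grow slowly.
-/

namespace Vale.Agent.P249.Pow

open Finset Vale.Agent.P249.Sub

/-- The scale `2^(L j)`. -/
noncomputable def scale (L : ℕ) (j : ℤ) : ℝ := (2 : ℝ) ^ ((L : ℤ) * j)

lemma scale_pos (L : ℕ) (j : ℤ) : 0 < scale L j := zpow_pos two_pos _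

lemma scale_add (L : ℕ) (j : ℤ) (k : ℕ) : scale L (j + k) = 2 ^ (L * k) * scale L j := by
  rw [scale, scale, ← zpow_natCast (2 : ℝ), ← zpow_add₀ two_ne_zero]
  congr 1
  push_cast
  ring

lemma scale_succ (L : ℕ) (j : ℤ) : scale L (j + 1) = 2 ^ L * scale L j := by
  simpa using scale_add L j 1

lemma scale_mono (L : ℕ) {i j : ℤ} (h : i ≤ j) : scale L i ≤ scale L j :=
  zpow_le_zpow_right₀ one_le_two (mul_le_mul_of_nonneg_left h (Int.natCast_nonneg L))

lemma exists_scale {L : ℕ} (hL : 1 ≤ L) {D : ℝ} (hD : 0 < D) :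
    ∃ m : ℤ, scale L m ≤ D ∧ D < scale L (m + 1) := by
  refine ⟨Int.log 2 D / (L : ℤ), ?_, ?_⟩
  · have h1 : (2 : ℝ) ^ Int.log 2 D ≤ D := by
      exact_mod_cast Int.zpow_log_le_self one_lt_two hD
    refine le_trans (zpow_le_zpow_right₀ one_le_two ?_) h1
    exact Int.mul_ediv_self_le (by omega)
  · have h1 : D < (2 : ℝ) ^ (Int.log 2 D + 1) := by
      exact_mod_cast Int.lt_zpow_succ_log_self one_lt_two D
    refine h1.trans_le (zpow_le_zpow_right₀ one_le_two ?_)
    have h2 := Int.lt_mul_ediv_self_add (x := Int.log 2 D) (show (0 : ℤ) < L by omega)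
    rw [mul_add, mul_one]
    omega

lemma sum_window_le {g : ℤ → ℝ} (hg : Monotone g) {B : ℝ} (hB : ∀ a b, g a - g b ≤ B)
    (S : Finset ℤ) : ∑ j ∈ S, (g (j + 3) - g j) ≤ 3 * B := by
  rcases S.eq_empty_or_nonempty with rfl | hS
  · simpa using le_trans (le_of_eq (sub_self (g 0)).symm) (hB 0 0)
  set a := S.min' hS with ha
  set M := (S.max' hS - a).toNat + 1 with hM
  have hnn : ∀ j, 0 ≤ g (j + 3) - g j := fun j => sub_nonneg.2 (hg (by omega))
  have hsub : S ⊆ (range M).image fun i : ℕ => a + (i : ℤ) := fun j hj => by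
    have h1 := S.min'_le j hj
    have h2 := S.le_max' j hj
    rw [← ha] at h1
    refine Finset.mem_image.2 ⟨(j - a).toNat, Finset.mem_range.2 (by omega), by omega⟩
  refine (Finset.sum_le_sum_of_subset_of_nonneg hsub fun j _ _ => hnn j).trans ?_
  rw [Finset.sum_image (fun i _ i' _ h => by simpa using h)]
  have h := sum_shift_le (g := fun i : ℕ => g (a + i)) (fun i i' hii => hg (by omega)) M 3
  push_cast at h
  simp only [← add_assoc] at h
  refine h.trans ?_
  have := hB (a + M + 3) (a + 0)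
  linarith

lemma sum_scale_le {L : ℕ} (hL : 1 ≤ L) (a : ℤ) (S : Finset ℤ) (hS : ∀ j ∈ S, j ≤ a) :
    ∑ j ∈ S, scale L j ≤ 2 * scale L a := by
  induction S using Finset.induction_on_max_value (fun j : ℤ => j) generalizing a with
  | empty => simpa using (scale_pos L a).le
  | insert b T hb hmax ih =>
    rw [Finset.sum_insert hb]
    have h1 := ih (b - 1) (fun j hj => (fun h : j < b => by omega)
      (lt_of_le_of_ne (hmax j hj) (fun h => hb (h ▸ hj))))
    have h2 := scale_succ L (b - 1)
    rw [sub_add_cancel] at h2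
    have h3 : (2 : ℝ) ≤ 2 ^ L := le_self_pow₀ one_le_two (by omega)
    have h4 := mul_le_mul_of_nonneg_right h3 (scale_pos L (b - 1)).le
    have h5 := scale_mono L (hS b (Finset.mem_insert_self b T))
    linarith

/-- Slope of a window average of the identity. -/
noncomputable def slope0 (Lam : ℕ) : ℝ := 24 + 180 * Lam

/-- Slope of the block part. -/
noncomputable def blockLip (Lam : ℕ) : ℝ :=
  1 + 208 * slope0 Lam * slope0 Lam + 4320 * slope0 Lam * Lam

variable {p : ℝ} [hp : Fact (1 ≤ ENNReal.ofReal p)]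

set_option maxHeartbeats 1000000 in
/-- The block part of the embedding. -/
theorem exists_blocks {V I : Type*} [Fintype V] [MetricSpace V] [Fintype I] (x : V → Ell p I)
    (hx : ∀ v w, dist v w = ‖x v - x w‖) {L Lam : ℕ} (hL : 1 ≤ L)
    (hn : Fintype.card V ≤ 2 ^ (Lam * L)) (hbig : 8192 * slope0 Lam ≤ (2 : ℝ) ^ L) :
    ∃ (d : ℕ) (G : V → Ell p (Fin d)),
      d ≤ 16 * (2 * Nat.log 2 (Fintype.card V) + 2) *
        ⌊radialDim p (4 * L) (Fintype.card V)⌋₊ ∧
      (∀ v w, ‖G v - G w‖ ≤ blockLip Lam * dist v w) ∧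
      ∀ v w, v ≠ w → dist v w ≤ 512 * ‖G v - G w‖ ∨
        ∃ m : ℤ, scale L m ≤ dist v w ∧ dist v w < scale L (m + 1) ∧
          (L : ℝ) / 720 < logBall v (scale L (m + 19)) - logBall v (scale L (m + 16)) := by
  classical
  have hp1 : 1 ≤ p := one_le_p
  have hp0 : 0 < p := by linarith
  set C0 := slope0 Lam with hC0
  have hC01 : 24 ≤ C0 := by
    rw [hC0, slope0]
    linarith [(Nat.cast_nonneg Lam : (0 : ℝ) ≤ Lam)]
  have hLp : (0 : ℝ) < L := by exact_mod_cast hL
  set n := Fintype.card V with hn'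
  have hlogn : Real.log n ≤ (Lam : ℝ) * L := by
    rcases Nat.eq_zero_or_pos n with h0 | h0
    · simp [h0]; positivity
    have h1 : (n : ℝ) ≤ (2 : ℝ) ^ (Lam * L) := by exact_mod_cast hn
    refine (Real.log_le_log (Nat.cast_pos.2 h0) h1).trans ?_
    rw [Real.log_pow]
    push_cast
    exact mul_le_of_le_one_right (by positivity) (by linarith [Real.log_two_lt_d9])
  have hslope : ∀ {K : ℝ}, 0 ≤ K → K * (24 + 180 * Real.log n / L) ≤ K * C0 := fun {K} hK => by
    refine mul_le_mul_of_nonneg_left ?_ hK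
    rw [hC0, slope0, mul_div_assoc]
    have : Real.log n / L ≤ Lam := by rw [div_le_iff₀ hLp]; exact hlogn
    linarith
  -- window averages of the identity
  have hΨ : ∀ j : ℤ, ∃ Φ : V → Ell p I,
      (∀ v w, ‖Φ v - Φ w‖ ≤ C0 * dist v w) ∧
      (∀ v w, 4 * dist v w ≤ scale L j → ‖Φ v - Φ w‖ ≤
        180 * ((logBall v (4 * scale L (j + 1)) - logBall v (scale L j / 2)) / L) * dist v w) ∧
      ∀ v, ‖Φ v - x v‖ ≤ scale L (j + 1) := by
    intro j
    obtain ⟨Φ, h1, h2, h3⟩ := exists_window (scale_pos L j) hL x zero_le_one (fun a b => by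
      rw [hx a b, one_mul]; linarith [scale_pos L j])
    refine ⟨Φ, fun v w => (h1 v w).trans ?_, fun v w h => ?_, fun v => ?_⟩
    · refine mul_le_mul_of_nonneg_right ?_ dist_nonneg
      simpa using hslope (K := 1) zero_le_one
    · simpa [scale_succ] using h2 v w h
    · refine h3 v (x v) _ (scale_pos L _).le fun s hs => ?_
      rw [← hx, dist_comm, scale_succ]
      exact hs
  choose Ψ hΨlip hΨgrowth hΨnear using hΨ
  let u : ℤ → V → Ell p I := fun j v => Ψ j v - Ψ (j + 19) v
  have hu : ∀ j v, ‖u j v‖ ≤ 2 * scale L (j + 20) := fun j v => by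
    refine (norm_sub_le_norm_sub_add_norm_sub (Ψ j v) (x v) (Ψ (j + 19) v)).trans ?_
    rw [norm_sub_rev (x v)]
    have h1 := scale_mono L (show j + 1 ≤ j + 20 by omega)
    have h2 := hΨnear (j + 19) v
    rw [show j + 19 + 1 = j + 20 by ring] at h2
    linarith [hΨnear j v]
  have huL : ∀ j v w, ‖u j v - u j w‖ ≤ 2 * C0 * dist v w := fun j v w => by
    simp only [u]
    rw [show Ψ j v - Ψ (j + 19) v - (Ψ j w - Ψ (j + 19) w) =
      (Ψ j v - Ψ j w) - (Ψ (j + 19) v - Ψ (j + 19) w) by abel]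
    refine (norm_sub_le _ _).trans ?_
    linarith [hΨlip j v w, hΨlip (j + 19) v w]
  set θ : ℝ := 1 / 2 ^ (7 * (4 * L)) with hθ
  have hθ0 : 0 < θ := by positivity
  have hθ1 : θ ≤ 1 := by
    rw [hθ, div_le_one (by positivity)]; exact one_le_pow₀ one_le_two
  have hθW : ∀ j, θ * (2 * scale L (j + 20)) = 2 * scale L (j - 8) := fun j => by
    have h := scale_add L (j - 8) 28
    rw [show j - 8 + ((28 : ℕ) : ℤ) = j + 20 by push_cast; ring] at h
    rw [h, hθ, show 7 * (4 * L) = L * 28 by ring]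
    field_simp
  have h8 : (8 : ℝ) ≤ 2 ^ L := by linarith
  set d := ⌊radialDim p (4 * L) n⌋₊ with hd
  -- compressed blocks
  have hψ : ∀ j : ℤ, ∃ ψ : V → Ell p (Fin d), (∀ v, ‖ψ v‖ ≤ 16 * scale L (j + 20)) ∧
      (∀ v w, ‖ψ v - ψ w‖ ≤ 8 * C0 * (dist v w + scale L (j - 4))) ∧
      ∀ v w, ‖u j v - u j w‖ / 32 - 2 * scale L (j - 8) ≤ ‖ψ v - ψ w‖ := by
    intro j
    set W := 2 * scale L (j + 20) with hW
    have hW0 : 0 < W := by linarith [scale_pos L (j + 20)]
    obtain ⟨d', ψ, hd', hψn, hψ⟩ := exists_lift (fun v => W⁻¹ • u j v) (fun v => by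
      rw [norm_smul, norm_inv, Real.norm_of_nonneg hW0.le, inv_mul_le_iff₀ hW0]
      linarith [hu j v]) hθ0 hθ1
    have hdd : d' ≤ d := Nat.le_floor (hd'.trans (le_of_eq (by
      rw [radialDim, hθ, one_div_one_div])))
    refine ⟨fun v => pad (Fin.castLEEmb hdd) (W • ψ v), fun v => ?_, fun v w => ?_, fun v w => ?_⟩
    · rw [norm_pad, norm_smul, Real.norm_of_nonneg hW0.le]
      have := mul_le_mul_of_nonneg_left (hψn v) hW0.le
      linarith
    · rw [pad_sub, norm_pad, ← smul_sub, norm_smul, Real.norm_of_nonneg hW0.le]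
      have h := (hψ v w).1
      rw [← smul_sub, norm_smul, norm_inv, Real.norm_of_nonneg hW0.le] at h
      calc W * ‖ψ v - ψ w‖ ≤ W * (4 * (W⁻¹ * ‖u j v - u j w‖ + θ)) :=
            mul_le_mul_of_nonneg_left h hW0.le
        _ = 4 * (‖u j v - u j w‖ + θ * W) := by field_simp
        _ ≤ _ := by
            rw [hW, hθW]
            have h1 := huL j v w
            have h2 : 2 * scale L (j - 8) ≤ scale L (j - 4) := by
              have h := scale_add L (j - 8) 4
              rw [show j - 8 + ((4 : ℕ) : ℤ) = j - 4 by push_cast; ring] at h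
              rw [h]
              refine mul_le_mul_of_nonneg_right ?_ (scale_pos L _).le
              exact le_self_pow₀ one_le_two (by omega)
            have h3 := mul_le_mul_of_nonneg_right (show (4 : ℝ) ≤ 8 * C0 by linarith)
              (scale_pos L (j - 4)).le
            linarith
    · rw [pad_sub, norm_pad, ← smul_sub, norm_smul, Real.norm_of_nonneg hW0.le, ← hθW, ← hW]
      have h := (hψ v w).2
      rw [← smul_sub, norm_smul, norm_inv, Real.norm_of_nonneg hW0.le] at h
      refine le_trans (le_of_eq ?_) (mul_le_mul_of_nonneg_left h hW0.le)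
      field_simp
  choose ψ hψn hψmod hψlow using hψ
  -- smoothed blocks
  have hφ : ∀ j : ℤ, ∃ φ : V → Ell p (Fin d), (∀ v, ‖φ v‖ ≤ 16 * scale L (j + 20)) ∧
      (∀ v w, ‖φ v - φ w‖ ≤ 8 * C0 * C0 * dist v w) ∧
      (∀ v w, 4 * dist v w ≤ scale L (j - 4) → ‖φ v - φ w‖ ≤
        1440 * C0 * ((logBall v (scale L (j - 5 + 3)) - logBall v (scale L (j - 5))) / L) *
          dist v w) ∧
      ∀ v, ‖φ v - ψ j v‖ ≤ 16 * C0 * scale L (j - 3) := by
    intro j
    have h3L : scale L (j - 3) = 2 ^ L * scale L (j - 4) := by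
      have := scale_succ L (j - 4); rwa [show j - 4 + 1 = j - 3 by ring] at this
    obtain ⟨φ, h1, h2, h3⟩ := exists_window (scale_pos L (j - 4)) hL (ψ j)
      (by linarith : (0 : ℝ) ≤ 8 * C0) (hψmod j)
    refine ⟨φ, fun v => ?_, fun v w => (h1 v w).trans ?_, fun v w h => ?_, fun v => ?_⟩
    · have := h3 v 0 (16 * scale L (j + 20)) (by linarith [scale_pos L (j + 20)]) fun s _ => by
        rw [sub_zero]; exact hψn j s
      rwa [sub_zero] at this
    · exact mul_le_mul_of_nonneg_right (hslope (by linarith)) dist_nonneg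
    · refine (h2 v w h).trans (mul_le_mul_of_nonneg_right ?_ dist_nonneg)
      rw [show 180 * (8 * C0) = 1440 * C0 by ring]
      refine mul_le_mul_of_nonneg_left (div_le_div_of_nonneg_right (sub_le_sub ?_ ?_) hLp.le)
        (by linarith)
      · refine logBall_mono v ?_
        have := scale_succ L (j - 3)
        rw [show j - 3 + 1 = j - 5 + 3 by ring, h3L] at this
        rw [this]
        exact mul_le_mul_of_nonneg_right (by linarith)
          (mul_nonneg (by positivity) (scale_pos L _).le)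
      · refine logBall_mono v ?_
        have := scale_succ L (j - 5)
        rw [show j - 5 + 1 = j - 4 by ring] at this
        rw [this]
        have h6 := mul_le_mul_of_nonneg_right h8 (scale_pos L (j - 5)).le
        linarith [scale_pos L (j - 5)]
    · refine h3 v (ψ j v) _ (by have := scale_pos L (j - 3); positivity) fun s hs => ?_
      refine (hψmod j s v).trans ?_
      rw [dist_comm, h3L]
      have h4 : scale L (j - 4) ≤ 2 ^ L * scale L (j - 4) :=
        le_mul_of_one_le_left (scale_pos L _).le (one_le_pow₀ one_le_two)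
      have := mul_le_mul_of_nonneg_left (add_le_add hs h4) (show (0 : ℝ) ≤ 8 * C0 by linarith)
      linarith
  choose φ hφn hφlip hφgrowth hφnear using hφ
  -- the designated window of a pair
  have hmm : ∀ q : V × V, ∃ m : ℤ, q.1 ≠ q.2 →
      scale L m ≤ dist q.1 q.2 ∧ dist q.1 q.2 < scale L (m + 1) := by
    intro q
    by_cases h : q.1 = q.2
    · exact ⟨0, fun h' => absurd h h'⟩
    · obtain ⟨m, hm⟩ := exists_scale hL (dist_pos.2 h)
      exact ⟨m, fun _ => hm⟩
  choose mm hmm using hmm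
  set Js : Finset ℤ := univ.image fun q : V × V => mm q - 2 with hJs
  let a : V × V → {j // j ∈ Js} → Ell p (Fin d) := fun q j => φ j q.1 - φ j q.2
  let j0 : V × V → {j // j ∈ Js} := fun q =>
    ⟨mm q - 2, Finset.mem_image_of_mem _ (Finset.mem_univ q)⟩
  set l := 2 * Nat.log 2 n + 1 with hl
  obtain ⟨ξ', hξ'⟩ := exists_signs a j0 (l := l) (by
    have h1 : n < 2 ^ (Nat.log 2 n + 1) := Nat.lt_pow_succ_log_self one_lt_two n
    rw [Fintype.card_prod, ← hn']
    calc n * n < 2 ^ (Nat.log 2 n + 1) * 2 ^ (Nat.log 2 n + 1) :=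
          Nat.mul_lt_mul'' h1 h1
      _ ≤ 4 ^ (l + 1) := by
          rw [← pow_add, show (4 : ℕ) = 2 ^ 2 by rfl, ← pow_mul]
          exact Nat.pow_le_pow_right two_pos (by omega))
  obtain ⟨Kc, hKc⟩ : ∃ Kc, Kc = 16 * (l + 1) := ⟨_, rfl⟩
  obtain ⟨ξ, hξ⟩ : ∃ ξ : Fin Kc → {j // j ∈ Js} → Bool, ∀ q,
      4 * (l + 1) ≤ (univ.filter fun k => ‖a q (j0 q)‖ ≤ ‖signSum (a q) (ξ k)‖).card := by
    subst hKc; exact ⟨ξ', hξ'⟩
  have hKc0 : (0 : ℝ) < Kc := by rw [hKc]; positivity
  set c : ℝ := ((Kc : ℝ)⁻¹) ^ p⁻¹ with hc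
  have hc0 : 0 ≤ c := Real.rpow_nonneg (inv_nonneg.2 hKc0.le) _
  have hcp : c ^ p = (Kc : ℝ)⁻¹ := Real.rpow_inv_rpow (inv_nonneg.2 hKc0.le) hp0.ne'
  let comp : Fin Kc → V → Ell p (Fin d) := fun k v =>
    signSum (fun j : {j // j ∈ Js} => φ j v) (ξ k)
  have hcomp : ∀ k v w, comp k v - comp k w = signSum (a (v, w)) (ξ k) := fun k v w => by
    simp only [comp, signSum, a]
    rw [← Finset.sum_sub_distrib]
    refine Finset.sum_congr rfl fun j _ => ?_
    cases ξ k j <;> simp <;> abel
  have hsum : ∀ v w, v ≠ w → ∑ j : {j // j ∈ Js}, ‖a (v, w) j‖ ≤ blockLip Lam * dist v w := by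
    intro v w hvw
    obtain ⟨hm1, hm2⟩ := hmm (v, w) hvw
    set m := mm (v, w)
    set D := dist v w with hD
    have hD0 : 0 ≤ D := dist_nonneg
    simp only [a]
    rw [Finset.sum_coe_sort Js (fun j => ‖φ j v - φ j w‖)]
    rw [← Finset.sum_filter_add_sum_filter_not Js (fun j => j + 20 ≤ m - 1),
      ← Finset.sum_filter_add_sum_filter_not (Js.filter fun j => ¬ j + 20 ≤ m - 1)
        (fun j => j ≤ m + 5)]
    have h1 : ∑ j ∈ Js.filter (fun j => j + 20 ≤ m - 1), ‖φ j v - φ j w‖ ≤ D := by
      calc ∑ j ∈ Js.filter (fun j => j + 20 ≤ m - 1), ‖φ j v - φ j w‖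
          ≤ ∑ j ∈ Js.filter (fun j => j + 20 ≤ m - 1), 32 * scale L (j + 20) :=
            Finset.sum_le_sum fun j _ =>
              (norm_sub_le _ _).trans (by linarith [hφn j v, hφn j w])
        _ = 32 * ∑ j ∈ (Js.filter fun j => j + 20 ≤ m - 1).image (· + 20), scale L j := by
            rw [Finset.mul_sum, Finset.sum_image (fun i _ i' _ h => by simpa using h)]
        _ ≤ 32 * (2 * scale L (m - 1)) := by
            refine mul_le_mul_of_nonneg_left (sum_scale_le hL _ _ fun j hj => ?_) (by norm_num)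
            simp only [Finset.mem_image, Finset.mem_filter] at hj
            obtain ⟨i, ⟨-, hi⟩, rfl⟩ := hj
            exact hi
        _ ≤ 2 ^ L * scale L (m - 1) := by
            have := mul_le_mul_of_nonneg_right (show (64 : ℝ) ≤ 2 ^ L by linarith)
              (scale_pos L (m - 1)).le
            linarith
        _ = scale L m := by rw [← scale_succ, sub_add_cancel]
        _ ≤ D := hm1
    have h2 : ∑ j ∈ (Js.filter fun j => ¬ j + 20 ≤ m - 1).filter (fun j => j ≤ m + 5),
        ‖φ j v - φ j w‖ ≤ 26 * (8 * C0 * C0 * D) := by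
      refine (Finset.sum_le_sum fun j _ => hφlip j v w).trans ?_
      rw [Finset.sum_const, nsmul_eq_mul]
      refine mul_le_mul_of_nonneg_right ?_ (by positivity)
      have : ((Js.filter fun j => ¬ j + 20 ≤ m - 1).filter fun j => j ≤ m + 5) ⊆
          Finset.Icc (m - 20) (m + 5) := fun j hj => by
        simp only [Finset.mem_filter] at hj
        exact Finset.mem_Icc.2 ⟨by omega, hj.2⟩
      have h := Finset.card_le_card this
      rw [Int.card_Icc] at h
      exact_mod_cast (show _ ≤ 26 by omega)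
    have h3 : ∑ j ∈ (Js.filter fun j => ¬ j + 20 ≤ m - 1).filter (fun j => ¬ j ≤ m + 5),
        ‖φ j v - φ j w‖ ≤ 4320 * C0 * Lam * D := by
      calc _ ≤ ∑ j ∈ (Js.filter fun j => ¬ j + 20 ≤ m - 1).filter (fun j => ¬ j ≤ m + 5),
            1440 * C0 * D / L *
              (logBall v (scale L (j - 5 + 3)) - logBall v (scale L (j - 5))) := by
            refine Finset.sum_le_sum fun j hj => ?_
            simp only [Finset.mem_filter] at hj
            refine (hφgrowth j v w ?_).trans (le_of_eq (by ring))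
            have h4 := scale_mono L (show m + 1 + 1 ≤ j - 4 by omega)
            rw [scale_succ L (m + 1)] at h4
            have h5 := mul_le_mul_of_nonneg_right (show (4 : ℝ) ≤ 2 ^ L by linarith)
              (scale_pos L (m + 1)).le
            linarith
        _ = 1440 * C0 * D / L * ∑ j ∈ ((Js.filter fun j => ¬ j + 20 ≤ m - 1).filter
              fun j => ¬ j ≤ m + 5).image (· - 5),
              (logBall v (scale L (j + 3)) - logBall v (scale L j)) := by
            rw [Finset.mul_sum, Finset.sum_image (fun i _ i' _ h => by simpa using h)]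
        _ ≤ 1440 * C0 * D / L * (3 * Real.log n) := by
            refine mul_le_mul_of_nonneg_left (sum_window_le (g := fun j => logBall v (scale L j))
              (fun i i' h => logBall_mono v (scale_mono L h)) (fun b b' => ?_) _) (by positivity)
            linarith [logBall_le v (scale L b), logBall_nonneg v (scale L b')]
        _ ≤ 1440 * C0 * D / L * (3 * ((Lam : ℝ) * L)) := by gcongr
        _ = _ := by field_simp; ring
    rw [blockLip, ← hC0]
    linarith
  let G0 : V → Ell p (Fin Kc × Fin d) := fun v => WithLp.toLp _ fun ki => c * comp ki.1 v ki.2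
  have hG0 : ∀ v w, ‖G0 v - G0 w‖ ^ p = (Kc : ℝ)⁻¹ * ∑ k, ‖comp k v - comp k w‖ ^ p := by
    intro v w
    rw [norm_rpow_eq, Fintype.sum_prod_type, Finset.mul_sum]
    refine Finset.sum_congr rfl fun k _ => ?_
    rw [norm_rpow_eq, Finset.mul_sum]
    refine Finset.sum_congr rfl fun i _ => ?_
    simp only [G0, PiLp.sub_apply]
    rw [← mul_sub, abs_mul, abs_of_nonneg hc0, Real.mul_rpow hc0 (abs_nonneg _), hcp]
  have hBpos : 0 ≤ blockLip Lam := by
    rw [blockLip, ← hC0]; positivity
  refine ⟨Kc * d, fun v => pad finProdFinEquiv.toEmbedding (G0 v), ?_, fun v w => ?_,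
    fun v w hvw => ?_⟩
  · rw [hKc, hl]
  · rw [pad_sub, norm_pad]
    rcases eq_or_ne v w with rfl | hvw
    · simp
    refine (Real.rpow_le_rpow_iff (norm_nonneg _) (mul_nonneg hBpos dist_nonneg) hp0).1 ?_
    rw [hG0]
    calc (Kc : ℝ)⁻¹ * ∑ k, ‖comp k v - comp k w‖ ^ p
        ≤ (Kc : ℝ)⁻¹ * ∑ _k : Fin Kc, (blockLip Lam * dist v w) ^ p := by
          gcongr with k
          rw [hcomp]
          refine le_trans ((norm_sum_le _ _).trans (Finset.sum_le_sum fun j _ => le_of_eq ?_))
            (hsum v w hvw)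
          cases ξ k j <;> simp
      _ = _ := by simp; field_simp
  · obtain ⟨hm1, hm2⟩ := hmm (v, w) hvw
    set m := mm (v, w) with hm
    set D := dist v w with hD
    by_cases hgr : (L : ℝ) / 720 < logBall v (scale L (m + 19)) - logBall v (scale L (m + 16))
    · exact Or.inr ⟨m, hm1, hm2, hgr⟩
    refine Or.inl ?_
    have hD0 : 0 < D := dist_pos.2 hvw
    have hΨtop : ‖Ψ (m - 2 + 19) v - Ψ (m - 2 + 19) w‖ ≤ D / 4 := by
      have h17 : 4 * D ≤ scale L (m - 2 + 19) := by
        have h4 := scale_mono L (show m + 1 + 1 ≤ m - 2 + 19 by omega)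
        rw [scale_succ L (m + 1)] at h4
        have h5 := mul_le_mul_of_nonneg_right (show (4 : ℝ) ≤ 2 ^ L by linarith)
          (scale_pos L (m + 1)).le
        linarith
      refine (hΨgrowth (m - 2 + 19) v w h17).trans ?_
      have hA : logBall v (4 * scale L (m - 2 + 19 + 1)) ≤ logBall v (scale L (m + 19)) := by
        refine logBall_mono v ?_
        rw [show m + 19 = m - 2 + 19 + 1 + 1 by ring, scale_succ L (m - 2 + 19 + 1)]
        exact mul_le_mul_of_nonneg_right (by linarith) (scale_pos L _).le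
      have hB : logBall v (scale L (m + 16)) ≤ logBall v (scale L (m - 2 + 19) / 2) := by
        refine logBall_mono v ?_
        rw [show m - 2 + 19 = m + 16 + 1 by ring, scale_succ L (m + 16)]
        have h6 := mul_le_mul_of_nonneg_right h8 (scale_pos L (m + 16)).le
        linarith [scale_pos L (m + 16)]
      calc 180 * ((logBall v (4 * scale L (m - 2 + 19 + 1)) -
              logBall v (scale L (m - 2 + 19) / 2)) / L) * D
          ≤ 180 * ((L : ℝ) / 720 / L) * D := by
            gcongr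
            linarith [not_lt.1 hgr]
        _ = D / 4 := by field_simp; ring
    have hm5 : 1024 * (8 * C0) * scale L (m - 2 - 3) ≤ D := by
      refine le_trans ?_ hm1
      have h := scale_add L (m - 2 - 3) 5
      rw [show m - 2 - 3 + ((5 : ℕ) : ℤ) = m by push_cast; ring] at h
      rw [h]
      refine mul_le_mul_of_nonneg_right ?_ (scale_pos L _).le
      refine le_trans ?_ (pow_le_pow_right₀ one_le_two (show L ≤ L * 5 by omega))
      linarith
    have hm8 : scale L (m - 2 - 8) ≤ scale L (m - 2 - 3) := scale_mono L (by omega)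
    have hu2 : D / 2 ≤ ‖u (m - 2) v - u (m - 2) w‖ := by
      have h1 := hΨnear (m - 2) v
      have h2 := hΨnear (m - 2) w
      have h3 : scale L (m - 2 + 1) * 8 ≤ D := by
        refine le_trans ?_ hm1
        rw [show m = m - 2 + 1 + 1 by ring, scale_succ L (m - 2 + 1),
          show m - 2 + 1 + 1 - 2 + 1 = m - 2 + 1 by ring, mul_comm]
        exact mul_le_mul_of_nonneg_right h8 (scale_pos L _).le
      have e : x v - x w = (u (m - 2) v - u (m - 2) w) +
          ((Ψ (m - 2 + 19) v - Ψ (m - 2 + 19) w) +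
          ((x v - Ψ (m - 2) v) - (x w - Ψ (m - 2) w))) := by
        simp only [u]; abel
      have h4 := (norm_add_le (u (m - 2) v - u (m - 2) w) _).trans'
        (le_of_eq (congrArg norm e))
      rw [← hx, ← hD] at h4
      have h5 := norm_add_le (Ψ (m - 2 + 19) v - Ψ (m - 2 + 19) w)
          ((x v - Ψ (m - 2) v) - (x w - Ψ (m - 2) w))
      have h6 := norm_sub_le (x v - Ψ (m - 2) v) (x w - Ψ (m - 2) w)
      rw [norm_sub_rev] at h1 h2
      linarith
    have hφ2 : D / 128 ≤ ‖a (v, w) (j0 (v, w))‖ := by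
      change D / 128 ≤ ‖φ (m - 2) v - φ (m - 2) w‖
      have h1 := hψlow (m - 2) v w
      have h2 := hφnear (m - 2) v
      have h3 := hφnear (m - 2) w
      have h4 := norm_sub_le_norm_sub_add_norm_sub (ψ (m - 2) v) (φ (m - 2) v) (ψ (m - 2) w)
      have h5 := norm_sub_le_norm_sub_add_norm_sub (φ (m - 2) v) (φ (m - 2) w) (ψ (m - 2) w)
      rw [norm_sub_rev] at h2
      have h6 : 0 < scale L (m - 2 - 3) := scale_pos L _
      have h7 := mul_le_mul_of_nonneg_right (show (2 : ℝ) ≤ 8 * C0 by linarith) h6.le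
      linarith
    rw [pad_sub, norm_pad]
    have key : D / 512 ≤ ‖G0 v - G0 w‖ := by
      refine (Real.rpow_le_rpow_iff (by positivity) (norm_nonneg _) hp0).1 ?_
      rw [hG0]
      set Sg := univ.filter fun k : Fin Kc =>
        ‖a (v, w) (j0 (v, w))‖ ≤ ‖signSum (a (v, w)) (ξ k)‖ with hSg
      have hcard : (Kc : ℝ) / 4 ≤ (Sg.card : ℝ) := by
        have h1 : 4 * (l + 1) ≤ Sg.card := hξ (v, w)
        have h2 : ((4 * (l + 1) : ℕ) : ℝ) ≤ (Sg.card : ℝ) := by exact_mod_cast h1
        have h4 : (Kc : ℝ) = ((16 * (l + 1) : ℕ) : ℝ) := by exact_mod_cast hKc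
        rw [h4]
        push_cast at h2 ⊢
        linarith
      calc (D / 512) ^ p = (D / 128) ^ p / (4 : ℝ) ^ p := by
            rw [← Real.div_rpow (by positivity) (by norm_num)]; ring_nf
        _ ≤ (D / 128) ^ p / 4 :=
            div_le_div_of_nonneg_left (by positivity) (by norm_num)
              (Real.self_le_rpow_of_one_le (by norm_num) hp1)
        _ = (Kc : ℝ)⁻¹ * ((Kc : ℝ) / 4 * (D / 128) ^ p) := by field_simp
        _ ≤ (Kc : ℝ)⁻¹ * ((Sg.card : ℝ) * (D / 128) ^ p) := by gcongr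
        _ = (Kc : ℝ)⁻¹ * ∑ _k ∈ Sg, (D / 128) ^ p := by simp
        _ ≤ (Kc : ℝ)⁻¹ * ∑ k ∈ Sg, ‖comp k v - comp k w‖ ^ p := by
            gcongr with k hk
            rw [hcomp]
            exact hφ2.trans (Finset.mem_filter.1 hk).2
        _ ≤ _ := by
            refine mul_le_mul_of_nonneg_left ?_ (by positivity)
            exact Finset.sum_le_sum_of_subset_of_nonneg
              (f := fun k => ‖comp k v - comp k w‖ ^ p) (Finset.subset_univ _)
              fun k _ _ => Real.rpow_nonneg (norm_nonneg _) _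
    linarith

end Vale.Agent.P249.Pow
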