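import Vale.Agent.P249.Pow.Blocks
import Vale.Agent.P249.Sub.Assemble

/-!
The full embedding: radial stages catch the distances near which balls grow quickly, and the
block part catches the others.
-/

namespace Vale.Agent.P249.Pow

open Finset Vale.Agent.P249.Sub

variable {p : ℝ} [hp : Fact (1 ≤ ENNReal.ofReal p)]

/-- One radial stage: it detects distances about `2^(3L)` to `2^(4L)` times below the radius. -/
lemma exists_radialStage {V I : Type*} [Fintype V] [MetricSpace V] [Fintype I] (x : V → Ell p I)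
    (hx : ∀ v w, dist v w = ‖x v - x w‖) (r0 : V → ℝ) (hr0 : ∀ v, 0 < r0 v)
    (hr0L : ∀ v w, |r0 v - r0 w| ≤ dist v w) {L Lam : ℕ} (hL : 16 ≤ L) (hLam : 1 ≤ Lam)
    (hn : Fintype.card V ≤ 2 ^ (Lam * L)) :
    ∃ (d : ℕ) (G : V → Ell p (Fin d)),
      d ≤ (L + 10) * 2 ^ (10 * Lam) * stageDim p L 0 (Fintype.card V) ∧
      (∀ v w, ‖G v - G w‖ ≤ 6 * cellLip Lam * dist v w) ∧
      ∀ v w, 2 * r0 v ≤ 2 ^ (4 * L) * dist v w ∧ 2 * r0 w ≤ 2 ^ (4 * L) * dist v w →
        2 ^ (3 * L) * dist v w ≤ 3 * r0 v → 2 ^ (3 * L) * dist v w ≤ 3 * r0 w →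
        dist v w ≤ 6 * 2 ^ (10 * Lam) * 5000 * ‖G v - G w‖ := by
  classical
  have hlip : (90004 : ℝ) ≤ cellLip Lam := by
    unfold cellLip
    have : (0 : ℝ) ≤ Lam := Nat.cast_nonneg _
    linarith
  refine exists_glue (p := p) r0 hr0 hr0L hL hLam hn (by linarith : (0 : ℝ) ≤ cellLip Lam)
    (by norm_num : (0 : ℝ) < 5000)
    (fun v w => 2 * r0 v ≤ 2 ^ (4 * L) * dist v w ∧ 2 * r0 w ≤ 2 ^ (4 * L) * dist v w)
    fun R z hR => ?_
  set W := {v : V // InCell r0 L R z v ∨ v = z} with hW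
  let zW : W := ⟨z, Or.inr rfl⟩
  have hlog : Real.log (Fintype.card W) ≤ (Lam : ℝ) * L := by
    have h1 : (Fintype.card W : ℝ) ≤ (2 : ℝ) ^ (Lam * L) := by
      exact_mod_cast (Fintype.card_subtype_le _).trans hn
    refine (Real.log_le_log (Nat.cast_pos.2 (Fintype.card_pos_iff.2 ⟨zW⟩)) h1).trans ?_
    rw [Real.log_pow]
    push_cast
    exact mul_le_of_le_one_right (by positivity) (by linarith [Real.log_two_lt_d9])
  obtain ⟨d, E, hd, hEu, hEn, hEl⟩ := exists_cell (fun v : W => x v.1)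
    (fun v w => by rw [Subtype.dist_eq]; exact hx _ _) {zW} (Finset.mem_singleton_self _)
    (N := 0) (by simp) (fun _ => R) (fun _ => hR) (fun v w => by simp)
    (fun v => by
      refine ⟨zW, Finset.mem_singleton_self _, ?_⟩
      rcases v.2 with h | h
      · rw [Subtype.dist_eq]; linarith [h.1]
      · rw [Subtype.dist_eq, h]; simp only [zW, dist_self]; linarith)
    (by omega : 15 ≤ L) hlog
  have hdle : d ≤ stageDim p L 0 (Fintype.card V) := by
    refine Nat.le_floor (hd.trans ?_)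
    unfold cellDim radialDim
    have := liftConst_pos p
    gcongr
    exact Fintype.card_subtype_le _
  refine ⟨fun v => if h : InCell r0 L R z v then pad (Fin.castLEEmb hdle) (E ⟨v, Or.inl h⟩) else 0,
    fun v hv => ?_, fun v w hv hw => ?_, fun v w hv hw hg => ?_⟩
  · simp only [dif_pos hv]
    rw [norm_pad]
    refine (hEn _).trans ?_
    have h1 := mul_le_mul_of_nonneg_right hlip hR.le
    have h3 : dist (⟨v, Or.inl hv⟩ : W) zW < 4 * R := hv.1
    linarith
  · simp only [dif_pos hv, dif_pos hw]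
    rw [pad_sub, norm_pad]
    exact hEu _ _
  · simp only [dif_pos hv, dif_pos hw]
    rw [pad_sub, norm_pad]
    have key : R ≤ (2 : ℝ) ^ (3 * L) * dist v w := by
      refine le_of_mul_le_mul_left ?_ (show (0 : ℝ) < 2 ^ L by positivity)
      rw [← mul_assoc, ← pow_add, show L + 3 * L = 4 * L by ring]
      exact hv.2.le.trans hg.1
    exact hEl ⟨v, Or.inl hv⟩ ⟨w, Or.inl hw⟩ key key

/-- Distortion of the full embedding. -/
noncomputable def powDist (Lam q : ℕ) : ℝ :=
  30000 * 2 ^ (10 * Lam) * (6 * (q + 1) * cellLip Lam + blockLip Lam)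

/-- Dimension of the full embedding. -/
noncomputable def powDim (p : ℝ) (l Lam q n : ℕ) : ℕ :=
  (q + 1) * ((7500 * l + 10) * 2 ^ (10 * Lam) * stageDim p (7500 * l) 0 n) +
    16 * (2 * Nat.log 2 n + 2) * ⌊radialDim p (6000 * l) n⌋₊

/-- The full embedding of a finite set. -/
theorem exists_powEmbedding {V I : Type*} [Fintype V] [MetricSpace V] [Fintype I]
    (x : V → Ell p I) (hx : ∀ v w, dist v w = ‖x v - x w‖) (hV : 2 ≤ Fintype.card V)
    {l Lam q : ℕ} (hl : 1 ≤ l) (hLam : 1 ≤ Lam) (hn : Fintype.card V ≤ 2 ^ (Lam * l))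
    (hq : Fintype.card V ≤ (2 ^ l) ^ q) (hbig : 8192 * slope0 Lam ≤ (2 : ℝ) ^ (1500 * l)) :
    ∃ (d : ℕ) (f : V → Ell p (Fin d)), d ≤ powDim p l Lam q (Fintype.card V) ∧
      ∀ v w, 1 / (30000 * 2 ^ (10 * Lam)) * dist v w ≤ ‖f v - f w‖ ∧
        ‖f v - f w‖ ≤ powDist Lam q * (1 / (30000 * 2 ^ (10 * Lam))) * dist v w := by
  classical
  set n := Fintype.card V with hn'
  set N := 2 ^ l with hN'
  have hN : 1 ≤ N := Nat.one_le_two_pow
  let m : ℕ → ℕ := fun i => max 2 (cellSize n N i)
  have hm2 : ∀ i, 2 ≤ m i := fun i => le_max_left _ _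
  have hmn : ∀ i, m i ≤ n := fun i => by
    refine max_le hV ?_
    have hP : 0 < N ^ i := pow_pos hN i
    rw [cellSize, Nat.div_le_iff_le_mul hP]
    have : n ≤ n * N ^ i := Nat.le_mul_of_pos_right n hP
    omega
  choose r hr0 hrL hrhigh hrlow using fun i => exists_radius (V := V) (hm2 i) (hmn i)
  have hLle : Lam * l ≤ Lam * (5 * (1500 * l)) := Nat.mul_le_mul_left _ (by omega)
  have hn5 : n ≤ 2 ^ (Lam * (5 * (1500 * l))) := hn.trans (Nat.pow_le_pow_right two_pos hLle)
  have hn1 : n ≤ 2 ^ (Lam * (1500 * l)) :=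
    hn.trans (Nat.pow_le_pow_right two_pos (Nat.mul_le_mul_left _ (by omega)))
  have hstage : ∀ i : Fin (q + 1), _ := fun i => exists_radialStage x hx (r (i : ℕ)) (hr0 _)
    (hrL _) (L := 5 * (1500 * l)) (by omega) hLam hn5
  choose dS GS hdS hGSu hGSl using hstage
  obtain ⟨dB, GB, hdB, hGBu, hGBl⟩ := exists_blocks x hx (L := 1500 * l) (by omega) hn1 hbig
  rw [show 4 * (1500 * l) = 6000 * l by ring] at hdB
  rw [show 5 * (1500 * l) = 7500 * l by ring] at hdS hGSl
  set dmax := (7500 * l + 10) * 2 ^ (10 * Lam) * stageDim p (7500 * l) 0 n with hdmax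
  let f0 : V → Ell p ((Fin (q + 1) × Fin dmax) ⊕ Fin dB) := fun v =>
    cat (WithLp.toLp _ fun ki => pad (Fin.castLEEmb (hdS ki.1)) (GS ki.1 v) ki.2) (GB v)
  obtain ⟨e⟩ : Nonempty ((Fin (q + 1) × Fin dmax) ⊕ Fin dB ≃ Fin ((q + 1) * dmax + dB)) :=
    ⟨Fintype.equivFinOfCardEq (by simp)⟩
  refine ⟨(q + 1) * dmax + dB, fun v => pad e.toEmbedding (f0 v),
    Nat.add_le_add_left hdB _, fun v w => ?_⟩
  rw [pad_sub, norm_pad]
  simp only [f0, cat_sub]
  have hp1 : 1 ≤ p := one_le_p
  set D := dist v w with hD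
  have hD0 : 0 ≤ D := dist_nonneg
  set S : Ell p (Fin (q + 1) × Fin dmax) :=
    (WithLp.toLp _ fun ki => pad (Fin.castLEEmb (hdS ki.1)) (GS ki.1 v) ki.2) -
      WithLp.toLp _ fun ki => pad (Fin.castLEEmb (hdS ki.1)) (GS ki.1 w) ki.2 with hS
  have hSp : ‖S‖ ^ p = ∑ k, ‖GS k v - GS k w‖ ^ p := by
    rw [norm_rpow_eq, Fintype.sum_prod_type]
    refine Finset.sum_congr rfl fun k _ => ?_
    rw [← norm_pad (Fin.castLEEmb (hdS k)) (GS k v - GS k w), ← pad_sub, norm_rpow_eq]
    simp [hS]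
  set M : ℝ := 2 ^ (10 * Lam) with hM
  have hMpos : 1 ≤ M := one_le_pow₀ one_le_two
  constructor
  · rw [one_div, inv_mul_le_iff₀ (by positivity)]
    rcases eq_or_ne v w with rfl | hvw
    · rw [hD, dist_self]; positivity
    rcases hGBl v w hvw with h | ⟨j, hj1, hj2, hgr⟩
    · rw [← hD] at h
      refine h.trans ?_
      calc 512 * ‖GB v - GB w‖ ≤ 30000 * M * ‖GB v - GB w‖ := by
            gcongr ?_ * _
            linarith
        _ ≤ _ := mul_le_mul_of_nonneg_left (le_norm_cat_right _ _) (by linarith)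
    rw [← hD] at hj1 hj2
    set A := ballCount v (scale (1500 * l) (j + 16)) with hA
    set B := ballCount v (scale (1500 * l) (j + 19)) with hB
    have hA1 : 1 ≤ A := Finset.card_pos.2
      ⟨v, Finset.mem_filter.2 ⟨Finset.mem_univ v, by rw [dist_self]; exact (scale_pos _ _).le⟩⟩
    have hB1 : 1 ≤ B := Finset.card_pos.2
      ⟨v, Finset.mem_filter.2 ⟨Finset.mem_univ v, by rw [dist_self]; exact (scale_pos _ _).le⟩⟩
    have hAB : 2 ^ (2 * l) * A < B := by
      rw [logBall, logBall] at hgr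
      change _ < Real.log ((max 1 B : ℕ) : ℝ) - Real.log ((max 1 A : ℕ) : ℝ) at hgr
      rw [max_eq_right hA1, max_eq_right hB1] at hgr
      have hAR : (0 : ℝ) < A := Nat.cast_pos.2 hA1
      have h2 : Real.log ((2 ^ (2 * l) * A : ℕ) : ℝ) < Real.log (B : ℝ) := by
        push_cast
        rw [Real.log_mul (by positivity) hAR.ne', Real.log_pow]
        push_cast at hgr ⊢
        have h3 := mul_le_mul_of_nonneg_left Real.log_two_lt_d9.le
          (show (0 : ℝ) ≤ 2 * l by positivity)
        have h4 : (1 : ℝ) ≤ l := by exact_mod_cast hl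
        linarith
      exact_mod_cast (Real.log_lt_log_iff (by positivity) (Nat.cast_pos.2 hB1)).1 h2
    have hBn : B ≤ n := Finset.card_le_univ _
    have hmq : m q ≤ B := by
      refine max_le ?_ ((cellSize_le hN).trans ?_)
      · have : 1 * 1 ≤ 2 ^ (2 * l) * A := Nat.mul_le_mul Nat.one_le_two_pow hA1
        omega
      · have h1 : n / N ^ q ≤ 1 := by
          rw [Nat.div_le_iff_le_mul (pow_pos hN q)]; omega
        have : 1 * 1 ≤ 2 ^ (2 * l) * A := Nat.mul_le_mul Nat.one_le_two_pow hA1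
        omega
    have hex : ∃ i, m i ≤ B := ⟨q, hmq⟩
    set i := Nat.find hex with hi
    have hiB : m i ≤ B := Nat.find_spec hex
    have hiq : i ≤ q := Nat.find_min' hex hmq
    have hAi : A < m i := by
      rcases Nat.eq_zero_or_pos i with h0 | h0
      · rw [h0]
        have h1 : n ≤ m 0 := by simp only [m, cellSize_zero]; exact le_max_right _ _
        have : A * 1 ≤ 2 ^ (2 * l) * A := by
          rw [Nat.mul_comm]; exact Nat.mul_le_mul_right _ Nat.one_le_two_pow
        omega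
      · have h1 : B < m (i - 1) := not_le.1 (Nat.find_min hex (by omega : i - 1 < i))
        have h2 : m (i - 1) ≤ N * m i := by
          refine max_le ?_ ?_
          · exact (hm2 i).trans (Nat.le_mul_of_pos_left _ hN)
          · refine (cellSize_step hN).trans ?_
            rw [Nat.sub_add_cancel h0]
            exact Nat.mul_le_mul_left _ (le_max_right _ _)
        by_contra hle
        push Not at hle
        have h3 : N * m i ≤ 2 ^ (2 * l) * A :=
          Nat.mul_le_mul (Nat.pow_le_pow_right two_pos (by omega)) hle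
        omega
    have hrup : r i v ≤ scale (1500 * l) (j + 19) := by
      by_contra hlt
      exact absurd (hrlow i v _ (not_le.1 hlt)) (not_lt.2 hiB)
    have hrdown : scale (1500 * l) (j + 16) < r i v := by
      by_contra hle
      have := (hrhigh i v).trans (ballCount_mono v (not_lt.1 hle))
      omega
    have h15 : (2 : ℝ) ^ (3 * (7500 * l)) * D < r i v := by
      refine lt_of_le_of_lt ?_ hrdown
      have h := scale_add (1500 * l) (j + 1) 15
      rw [show j + 1 + ((15 : ℕ) : ℤ) = j + 16 by push_cast; ring] at h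
      rw [h, show 3 * (7500 * l) = 1500 * l * 15 by ring]
      exact mul_le_mul_of_nonneg_left hj2.le (by positivity)
    have h20 : 2 * (r i v + D) ≤ (2 : ℝ) ^ (4 * (7500 * l)) * D := by
      have h := scale_add (1500 * l) j 19
      rw [show j + ((19 : ℕ) : ℤ) = j + 19 by push_cast; ring] at h
      have h1 : r i v ≤ 2 ^ (1500 * l * 19) * D :=
        (hrup.trans (le_of_eq h)).trans (mul_le_mul_of_nonneg_left hj1 (by positivity))
      have h2 : (4 : ℝ) ≤ 2 ^ (1500 * l) := by
        calc (4 : ℝ) = 2 ^ 2 := by norm_num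
          _ ≤ _ := pow_le_pow_right₀ one_le_two (by omega)
      have h3 : (1 : ℝ) ≤ 2 ^ (1500 * l * 19) := one_le_pow₀ one_le_two
      rw [show 4 * (7500 * l) = 1500 * l * 19 + 1500 * l by ring, pow_add]
      have h4 := mul_le_mul_of_nonneg_right
        (mul_le_mul_of_nonneg_left h2 (by linarith : (0 : ℝ) ≤ 2 ^ (1500 * l * 19))) hD0
      have h5 := mul_le_mul_of_nonneg_right h3 hD0
      linarith
    have habs := abs_le.1 (hrL i v w)
    rw [← hD] at habs
    have hpow3 : (2 : ℝ) ≤ 2 ^ (3 * (7500 * l)) := le_self_pow₀ one_le_two (by omega)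
    have h2D := mul_le_mul_of_nonneg_right hpow3 hD0
    set k : Fin (q + 1) := ⟨i, by omega⟩ with hk
    have hres := hGSl k v w ⟨by simp only [k]; rw [← hD]; linarith,
        by simp only [k]; rw [← hD]; linarith [habs.1]⟩
      (by simp only [k]; rw [← hD]; linarith [hr0 i v])
      (by simp only [k]; rw [← hD]; linarith [habs.2])
    rw [← hD] at hres
    refine hres.trans ?_
    have hle : ‖GS k v - GS k w‖ ≤ ‖cat S (GB v - GB w)‖ := by
      refine le_trans ?_ (le_norm_cat_left _ _)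
      refine le_norm_of_le_rpow _ (norm_nonneg _) ?_
      rw [← norm_rpow_eq, hSp]
      exact Finset.single_le_sum (f := fun k => ‖GS k v - GS k w‖ ^ p)
        (fun k _ => Real.rpow_nonneg (norm_nonneg _) _) (Finset.mem_univ k)
    calc 6 * M * 5000 * ‖GS k v - GS k w‖ ≤ 6 * M * 5000 * ‖cat S (GB v - GB w)‖ :=
          mul_le_mul_of_nonneg_left hle (by linarith)
      _ = 30000 * M * ‖cat S (GB v - GB w)‖ := by ring
  · refine (norm_cat_le _ _).trans ?_
    have h1 : ‖S‖ ≤ ((q : ℝ) + 1) * (6 * cellLip Lam * D) := by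
      have hc : ∀ k, ‖GS k v - GS k w‖ ≤ 6 * cellLip Lam * D := fun k => hGSu k v w
      refine le_trans (b := ∑ k, ‖GS k v - GS k w‖) ?_ ?_
      · refine norm_le_of_rpow_le _ (Finset.sum_nonneg fun k _ => norm_nonneg _) ?_
        rw [← norm_rpow_eq, hSp]
        exact sum_rpow_le_rpow_sum _ hp1 fun k => norm_nonneg _
      · exact (Finset.sum_le_sum fun k _ => hc k).trans_eq (by simp)
    have h2 := hGBu v w
    have e' : powDist Lam q * (1 / (30000 * M)) * D =
        (6 * (q + 1) * cellLip Lam + blockLip Lam) * D := by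
      rw [powDist, hM]
      field_simp
    rw [e']
    linarith

end Vale.Agent.P249.Pow
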