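import Vale.Agent.P249.Pow.Embed
import Vale.Agent.P249.Sub.Growth

/-!
Dimension and distortion of the full embedding as functions of the number of points.
-/

namespace Vale.Agent.P249.Pow

open Filter Vale.Agent.P249.Sub

/-- The basic exponent of the embedding. -/
noncomputable def baseExp (p : ℝ) : ℕ := 52500 * ⌈p⌉₊ * radExp p

lemma baseExp_pos {p : ℝ} (hp : 1 ≤ p) : 1 ≤ baseExp p := by
  have : 1 ≤ ⌈p⌉₊ := Nat.one_le_iff_ne_zero.2 (Nat.ceil_pos.2 (by linarith)).ne'
  unfold baseExp radExp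
  exact Nat.one_le_iff_ne_zero.2 (by positivity)

/-- The distortion grows at most exponentially in `G`. -/
lemma exists_rate {p : ℝ} (hp : 1 ≤ p) :
    ∃ a : ℝ, 1 ≤ a ∧ ∀ G : ℕ, 1 ≤ G →
      3 * powDist (baseExp p * G) (baseExp p * G) ≤ Real.exp (a * G) := by
  set c : ℝ := (baseExp p : ℝ) with hc
  have hc1 : 1 ≤ c := by rw [hc]; exact_mod_cast baseExp_pos hp
  set K : ℝ := 6 * (2 * c) * (2 + 108000 * (20 + 180 * c)) +
    (1 + 208 * (24 + 180 * c) * (24 + 180 * c) + 4320 * (24 + 180 * c) * c) with hK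
  have hK1 : 1 ≤ K := by
    rw [hK]
    have h1 : 0 ≤ 6 * (2 * c) * (2 + 108000 * (20 + 180 * c)) := by positivity
    have h2 : 0 ≤ 208 * (24 + 180 * c) * (24 + 180 * c) := by positivity
    have h3 : 0 ≤ 4320 * (24 + 180 * c) * c := by positivity
    linarith
  have hlogK : 0 ≤ Real.log (90000 * K) := Real.log_nonneg (by linarith)
  refine ⟨Real.log (90000 * K) + 10 * c + 2, by linarith, fun G hG => ?_⟩
  have hG1 : (1 : ℝ) ≤ G := by exact_mod_cast hG
  have hbr : 6 * (((baseExp p * G : ℕ) : ℝ) + 1) * cellLip ((baseExp p * G : ℕ) : ℝ) +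
      blockLip (baseExp p * G) ≤ K * ((G : ℝ) * G) := by
    unfold blockLip slope0 cellLip
    push_cast
    rw [← hc]
    have h1 : c * G + 1 ≤ 2 * c * G := by
      have := one_le_mul_of_one_le_of_one_le hc1 hG1
      linarith
    have h2 : 2 + 108000 * (20 + 180 * (c * G)) ≤ (2 + 108000 * (20 + 180 * c)) * G := by
      linarith
    have h3 : 24 + 180 * (c * G) ≤ (24 + 180 * c) * G := by linarith
    have h4 : (1 : ℝ) ≤ (G : ℝ) * G := one_le_mul_of_one_le_of_one_le hG1 hG1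
    calc 6 * (c * G + 1) * (2 + 108000 * (20 + 180 * (c * G))) +
          (1 + 208 * (24 + 180 * (c * G)) * (24 + 180 * (c * G)) +
            4320 * (24 + 180 * (c * G)) * (c * G))
        ≤ 6 * (2 * c * G) * ((2 + 108000 * (20 + 180 * c)) * G) +
          ((G : ℝ) * G + 208 * ((24 + 180 * c) * G) * ((24 + 180 * c) * G) +
            4320 * ((24 + 180 * c) * G) * (c * G)) := by gcongr
      _ = K * ((G : ℝ) * G) := by rw [hK]; ring
  have hGexp : (G : ℝ) ≤ Real.exp G := by linarith [Real.add_one_le_exp (G : ℝ)]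
  have hM : (2 : ℝ) ^ (10 * (baseExp p * G)) ≤ Real.exp (10 * c * G) := by
    calc (2 : ℝ) ^ (10 * (baseExp p * G)) ≤ Real.exp 1 ^ (10 * (baseExp p * G)) :=
          pow_le_pow_left₀ two_pos.le (by linarith [Real.add_one_le_exp (1 : ℝ)]) _
      _ = _ := by
          rw [← Real.exp_nat_mul, mul_one]
          congr 1
          rw [hc]; push_cast; ring
  have hbr0 : 0 ≤ 6 * (((baseExp p * G : ℕ) : ℝ) + 1) * cellLip ((baseExp p * G : ℕ) : ℝ) +
      blockLip (baseExp p * G) := by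
    unfold blockLip slope0 cellLip
    positivity
  calc 3 * powDist (baseExp p * G) (baseExp p * G)
      = 90000 * (2 : ℝ) ^ (10 * (baseExp p * G)) *
        (6 * (((baseExp p * G : ℕ) : ℝ) + 1) * cellLip ((baseExp p * G : ℕ) : ℝ) +
          blockLip (baseExp p * G)) := by unfold powDist; ring
    _ ≤ 90000 * Real.exp (10 * c * G) * (K * (Real.exp G * Real.exp G)) := by
        refine mul_le_mul (mul_le_mul_of_nonneg_left hM (by norm_num)) (hbr.trans ?_) hbr0
          (by positivity)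
        gcongr
    _ = 90000 * K * Real.exp ((10 * c + 2) * G) := by
        rw [show (10 * c + 2) * G = 10 * c * G + (G + G) by ring, Real.exp_add, Real.exp_add]
        ring
    _ = Real.exp (Real.log (90000 * K)) * Real.exp ((10 * c + 2) * G) := by
        rw [Real.exp_log (by positivity)]
    _ ≤ _ := by
        rw [← Real.exp_add, Real.exp_le_exp]
        have := le_mul_of_one_le_right hlogK hG1
        linarith

/-- Bound on one radial lift dimension. -/
lemma radialDim_le {p : ℝ} {n G L l : ℕ} (hn : 1 ≤ n) (hx1 : 1 ≤ Real.log n)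
    (hG : 1 ≤ G) (hl : l = Nat.log 2 n / (baseExp p * G) + 1) (hL : L ≤ 7500 * l) :
    radialDim p L n ≤ (6 * liftConst p) ^ radExp p * 2 ^ baseExp p * Real.log n ^ radExp p *
      (n : ℝ) ^ ((G : ℝ)⁻¹) := by
  set P := ⌈p⌉₊ with hP
  set e := radExp p with he
  set x := Real.log n
  have hlc := liftConst_pos p
  have hlog : (Nat.log 2 n : ℝ) ≤ 2 * x := natLog_le n hn
  have hc : baseExp p = 52500 * P * e := rfl
  have h1 : ((2 : ℝ) ^ (7 * L)) ^ p ≤ 2 ^ (7 * (7500 * l) * P) := by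
    refine le_trans (Real.rpow_le_rpow_of_exponent_le (one_le_pow₀ one_le_two) (Nat.le_ceil p)) ?_
    rw [Real.rpow_natCast, ← pow_mul]
    exact pow_le_pow_right₀ one_le_two (Nat.mul_le_mul_right _ (by omega))
  have h2 : (2 : ℝ) ^ (7 * (7500 * l) * P * e) ≤ 2 ^ baseExp p * (n : ℝ) ^ ((G : ℝ)⁻¹) := by
    set t := baseExp p * (Nat.log 2 n / (baseExp p * G)) with ht
    rw [show 7 * (7500 * l) * P * e = baseExp p + t by rw [ht, hl, hc]; ring, pow_add]
    refine mul_le_mul_of_nonneg_left ?_ (by positivity)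
    have h3 : t * G ≤ Nat.log 2 n := by
      rw [ht, Nat.mul_right_comm]
      exact Nat.mul_div_le _ _
    have h4 : ((2 : ℝ) ^ t) ^ G ≤ n := by
      rw [← pow_mul]
      refine (pow_le_pow_right₀ one_le_two h3).trans ?_
      exact_mod_cast Nat.pow_log_le_self 2 (show n ≠ 0 by omega)
    calc (2 : ℝ) ^ t = (((2 : ℝ) ^ t) ^ G) ^ ((G : ℝ)⁻¹) :=
          (Real.pow_rpow_inv_natCast (by positivity) (by omega)).symm
      _ ≤ (n : ℝ) ^ ((G : ℝ)⁻¹) := Real.rpow_le_rpow (by positivity) h4 (by positivity)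
  calc radialDim p L n = (2 * liftConst p * ((2 : ℝ) ^ (7 * L)) ^ p *
        ((Nat.log 2 n : ℝ) + 1)) ^ e := rfl
    _ ≤ (2 * liftConst p * 2 ^ (7 * (7500 * l) * P) * (3 * x)) ^ e := by
        gcongr
        linarith
    _ = (6 * liftConst p) ^ e * 2 ^ (7 * (7500 * l) * P * e) * x ^ e := by
        rw [pow_mul _ (7 * (7500 * l) * P) e, ← mul_pow, ← mul_pow]
        congr 1
        ring
    _ ≤ (6 * liftConst p) ^ e * (2 ^ baseExp p * (n : ℝ) ^ ((G : ℝ)⁻¹)) * x ^ e := by gcongr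
    _ = _ := by ring

/-- Eventually the dimension is at most `n ^ (2 / G)`. -/
lemma eventually_powDim {p : ℝ} (hp : 1 ≤ p) {G : ℕ} (hG : 1 ≤ G) :
    ∀ᶠ n : ℕ in atTop, ∃ l : ℕ, 1 ≤ l ∧ n ≤ 2 ^ (baseExp p * G * l) ∧
      n ≤ (2 ^ l) ^ (baseExp p * G) ∧
      8192 * slope0 (baseExp p * G) ≤ (2 : ℝ) ^ (1500 * l) ∧
      (powDim p l (baseExp p * G) (baseExp p * G) n : ℝ) ≤ (n : ℝ) ^ (2 * (G : ℝ)⁻¹) := by
  set Lam := baseExp p * G with hLam
  have hLampos : 1 ≤ Lam := Nat.one_le_iff_ne_zero.2 (by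
    have := baseExp_pos hp
    rw [hLam]; positivity)
  set e := radExp p
  set M : ℝ := 2 ^ (10 * Lam) with hM
  have hlc := liftConst_pos p
  set R : ℝ := (6 * liftConst p) ^ e * 2 ^ baseExp p with hR
  have hR0 : 0 ≤ R := by positivity
  set C : ℝ := ((Lam : ℝ) + 1) * (22510 * M * (2 + 9 * R)) + 96 * R with hC
  have hC0 : 0 < C := by positivity
  set N0 := ⌈8192 * slope0 Lam⌉₊ with hN0
  have hGr : (0 : ℝ) < (G : ℝ)⁻¹ := by positivity
  have hlim : Tendsto (fun n : ℕ => Real.log n) atTop atTop :=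
    Real.tendsto_log_atTop.comp tendsto_natCast_atTop_atTop
  have hsmall : ∀ᶠ n : ℕ in atTop, C * Real.log n ^ (e + 1) ≤ (n : ℝ) ^ ((G : ℝ)⁻¹) := by
    have h := ((isLittleO_log_rpow_rpow_atTop ((e + 1 : ℕ) : ℝ) hGr).comp_tendsto
      tendsto_natCast_atTop_atTop).def (show (0 : ℝ) < C⁻¹ by positivity)
    filter_upwards [h, hlim.eventually_ge_atTop 0] with n hn hn0
    simp only [Function.comp_apply, Real.rpow_natCast, Real.norm_eq_abs,
      abs_of_nonneg (pow_nonneg hn0 (e + 1)),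
      abs_of_nonneg (Real.rpow_nonneg (Nat.cast_nonneg n) ((G : ℝ)⁻¹))] at hn
    calc C * Real.log n ^ (e + 1) ≤ C * (C⁻¹ * (n : ℝ) ^ ((G : ℝ)⁻¹)) :=
          mul_le_mul_of_nonneg_left hn hC0.le
      _ = _ := by field_simp
  filter_upwards [eventually_ge_atTop (2 ^ (Lam * N0)), hlim.eventually_ge_atTop 1, hsmall]
    with n hn hx1 hsm
  have hn1 : 1 ≤ n := le_trans Nat.one_le_two_pow hn
  set x := Real.log n with hx
  set ln := Nat.log 2 n with hln
  have hlnx : (ln : ℝ) ≤ 2 * x := natLog_le n hn1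
  set l := ln / Lam + 1 with hl
  have hnl : n ≤ 2 ^ (Lam * l) := by
    refine (Nat.lt_pow_succ_log_self one_lt_two n).le.trans (Nat.pow_le_pow_right two_pos ?_)
    have := Nat.lt_div_mul_add (a := ln) (b := Lam) (by omega)
    rw [hl, Nat.mul_add, Nat.mul_comm, mul_one]
    omega
  refine ⟨l, Nat.le_add_left 1 _, hnl, ?_, ?_, ?_⟩
  · rwa [← pow_mul, Nat.mul_comm]
  · have h1 : N0 ≤ ln / Lam := by
      rw [Nat.le_div_iff_mul_le (by omega), Nat.mul_comm]
      exact Nat.le_log_of_pow_le one_lt_two hn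
    have h2 : N0 ≤ 2 ^ (1500 * l) :=
      le_trans (by omega : N0 ≤ 1500 * l) Nat.lt_two_pow_self.le
    refine (Nat.le_ceil _).trans ?_
    rw [← hN0]
    exact_mod_cast h2
  set y := (n : ℝ) ^ ((G : ℝ)⁻¹) with hy
  have hy1 : 1 ≤ y := Real.one_le_rpow (by exact_mod_cast hn1) hGr.le
  have hrad : ∀ L, L ≤ 7500 * l → radialDim p L n ≤ R * (x ^ e * y) := fun L hL =>
    (radialDim_le hn1 hx1 hG rfl hL).trans (le_of_eq (by rw [hR]; ring))
  have hxy : 1 ≤ x ^ e * y := one_le_mul_of_one_le_of_one_le (one_le_pow₀ hx1) hy1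
  have hl3 : ((l : ℕ) : ℝ) ≤ 3 * x := by
    have : l ≤ ln + 1 := by
      have := Nat.div_le_self ln Lam
      omega
    have h2 : (l : ℝ) ≤ ln + 1 := by exact_mod_cast this
    linarith
  have hstage : (stageDim p (7500 * l) 0 n : ℝ) ≤ (2 + 9 * R) * (x ^ e * y) := by
    refine (Nat.floor_le ?_).trans ?_
    · unfold cellDim radialDim; positivity
    · unfold cellDim
      have h1 : (projRank 0 : ℝ) = 1 := by simp [projRank]
      rw [h1]
      linarith [hrad _ le_rfl]
  have hblock : (⌊radialDim p (6000 * l) n⌋₊ : ℝ) ≤ R * (x ^ e * y) :=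
    (Nat.floor_le (by unfold radialDim; positivity)).trans (hrad _ (by omega))
  calc (powDim p l Lam Lam n : ℝ)
      = ((Lam : ℝ) + 1) * ((7500 * (l : ℝ) + 10) * M * stageDim p (7500 * l) 0 n) +
        16 * (2 * (ln : ℝ) + 2) * ⌊radialDim p (6000 * l) n⌋₊ := by
        unfold powDim
        push_cast
        rw [hM]
    _ ≤ ((Lam : ℝ) + 1) * (22510 * x * M * ((2 + 9 * R) * (x ^ e * y))) +
        16 * (6 * x) * (R * (x ^ e * y)) := by
        gcongr
        · linarith
        · linarith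
    _ = C * x ^ (e + 1) * y := by rw [hC]; ring
    _ ≤ y * y := by gcongr
    _ = _ := by
        rw [hy, two_mul, Real.rpow_add (by exact_mod_cast hn1)]

end Vale.Agent.P249.Pow
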