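import Vale.Agent.P249.Sub.Snap

/-!
Averages of ball means over a window of absolute scales: their slope is controlled by the growth
of the balls inside the window.
-/

namespace Vale.Agent.P249.Pow

open Finset Vale.Agent.P249.Sub

variable {G : Type*} [NormedAddCommGroup G] [NormedSpace ℝ G]
variable {V : Type*} [Fintype V] [PseudoMetricSpace V]

/-- Logarithm of the number of points in a closed ball. -/
noncomputable def logBall (v : V) (r : ℝ) : ℝ :=
  Real.log ((max 1 (univ.filter fun y => dist v y ≤ r).card : ℕ) : ℝ)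

lemma logBall_mono (v : V) : Monotone (logBall v) := fun r r' hrr => by
  refine Real.log_le_log (Nat.cast_pos.2 (lt_of_lt_of_le one_pos (le_max_left _ _))) ?_
  refine Nat.cast_le.2 (max_le_max le_rfl (Finset.card_le_card fun s hs => ?_))
  rw [Finset.mem_filter] at hs ⊢
  exact ⟨hs.1, hs.2.trans hrr⟩

lemma logBall_nonneg (v : V) (r : ℝ) : 0 ≤ logBall v r :=
  Real.log_nonneg (by exact_mod_cast le_max_left 1 _)

lemma logBall_le (v : V) (r : ℝ) : logBall v r ≤ Real.log (Fintype.card V) := by
  refine Real.log_le_log (Nat.cast_pos.2 (lt_of_lt_of_le one_pos (le_max_left _ _))) ?_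
  exact Nat.cast_le.2 (max_le (Fintype.card_pos_iff.2 ⟨v⟩) (Finset.card_le_univ _))

set_option maxHeartbeats 1000000 in
/-- Averaging a map over balls with radii in `[T, 2^L T]`. -/
theorem exists_window {T : ℝ} (hT : 0 < T) {L : ℕ} (hL : 1 ≤ L) (ψ : V → G) {K : ℝ} (hK : 0 ≤ K)
    (hψ : ∀ a b, ‖ψ a - ψ b‖ ≤ K * (dist a b + T)) :
    ∃ Φ : V → G,
      (∀ v w, ‖Φ v - Φ w‖ ≤ K * (24 + 180 * Real.log (Fintype.card V) / L) * dist v w) ∧
      (∀ v w, 4 * dist v w ≤ T → ‖Φ v - Φ w‖ ≤
        180 * K * ((logBall v (4 * (2 ^ L * T)) - logBall v (T / 2)) / L) * dist v w) ∧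
      ∀ v (c : G) (R : ℝ), 0 ≤ R →
        (∀ s, dist v s ≤ 2 ^ L * T → ‖ψ s - c‖ ≤ R) → ‖Φ v - c‖ ≤ R := by
  classical
  have hLp : (0 : ℝ) < L := by exact_mod_cast hL
  set J0 : ℕ := ⌈∑ v : V, ∑ w, 2 ^ L * T / dist v w⌉₊ + 1 with hJ0
  have hJp : (0 : ℝ) < J0 := by rw [hJ0]; positivity
  let bb : ℕ → ℝ := fun i => 2 ^ i * T
  let R : ℕ → ℕ → ℝ := fun i j => 2 ^ i * T * (1 + j / J0)
  let ball : V → ℝ → Finset V := fun v r => univ.filter fun s => dist v s ≤ r
  let A : V → ℕ → ℕ → G := fun v i j => favg (ball v (R i j)) ψ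
  have hbT : ∀ i, T ≤ bb i := fun i => le_mul_of_one_le_left hT.le (one_le_pow₀ one_le_two)
  have hlo : ∀ i j, bb i ≤ R i j := fun i j =>
    le_mul_of_one_le_right (by positivity) (by
      have : (0 : ℝ) ≤ j / J0 := by positivity
      linarith)
  have hhi : ∀ i j, j < J0 → R i j ≤ 2 * bb i := fun i j hj => by
    calc R i j ≤ 2 ^ i * T * 2 := by
          refine mul_le_mul_of_nonneg_left ?_ (by positivity)
          have : (j : ℝ) / J0 ≤ 1 := (div_le_one hJp).2 (by exact_mod_cast hj.le)
          linarith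
      _ = _ := by simp only [bb]; ring
  have htop : ∀ i j, i < L → j < J0 → R i j ≤ 2 ^ L * T := fun i j hi hj => by
    refine (hhi i j hj).trans ?_
    simp only [bb]
    rw [← mul_assoc, ← pow_succ']
    exact mul_le_mul_of_nonneg_right (pow_le_pow_right₀ one_le_two hi) hT.le
  have hne : ∀ v r, 0 ≤ r → (ball v r).Nonempty := fun v r hr =>
    ⟨v, Finset.mem_filter.2 ⟨mem_univ v, by rw [dist_self]; exact hr⟩⟩
  have hR0 : ∀ i j, 0 ≤ R i j := fun i j => le_trans (by positivity) (hlo i j)
  refine ⟨fun v => ((L : ℝ) * J0)⁻¹ • ∑ i ∈ range L, ∑ j ∈ range J0, A v i j, ?_⟩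
  have hnear : ∀ v (c : G) (r : ℝ), 0 ≤ r → (∀ s, dist v s ≤ 2 ^ L * T → ‖ψ s - c‖ ≤ r) →
      ‖(((L : ℝ) * J0)⁻¹ • ∑ i ∈ range L, ∑ j ∈ range J0, A v i j) - c‖ ≤ r := by
    intro v c r hr h
    have e : (((L : ℝ) * J0)⁻¹ • ∑ i ∈ range L, ∑ j ∈ range J0, A v i j) - c =
        ((L : ℝ) * J0)⁻¹ • ∑ i ∈ range L, ∑ j ∈ range J0, (A v i j - c) := by
      simp only [Finset.sum_sub_distrib, Finset.sum_const, Finset.card_range, smul_sub]
      rw [← Nat.cast_smul_eq_nsmul ℝ, ← Nat.cast_smul_eq_nsmul ℝ, smul_smul, smul_smul,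
        mul_assoc, inv_mul_cancel₀ (by positivity), one_smul]
    rw [e, norm_smul, norm_inv, Real.norm_of_nonneg (by positivity),
      inv_mul_le_iff₀ (by positivity)]
    refine (norm_sum_le _ _).trans ((Finset.sum_le_sum fun i hi => (norm_sum_le _ _).trans
      (Finset.sum_le_sum (g := fun _ => r) fun j hj => ?_)).trans (le_of_eq ?_))
    · refine norm_favg_sub_const_le (hne v _ (hR0 i j)) ψ c hr fun s hs => ?_
      rw [Finset.mem_filter] at hs
      exact h s (hs.2.trans (htop i j (Finset.mem_range.1 hi) (Finset.mem_range.1 hj)))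
    · simp; ring
  have hpairwise : ∀ v w, ‖(((L : ℝ) * J0)⁻¹ • ∑ i ∈ range L, ∑ j ∈ range J0, A v i j) -
      ((L : ℝ) * J0)⁻¹ • ∑ i ∈ range L, ∑ j ∈ range J0, A w i j‖ ≤
        K * (24 + 180 * Real.log (Fintype.card V) / L) * dist v w ∧
      (4 * dist v w ≤ T → ‖(((L : ℝ) * J0)⁻¹ • ∑ i ∈ range L, ∑ j ∈ range J0, A v i j) -
      ((L : ℝ) * J0)⁻¹ • ∑ i ∈ range L, ∑ j ∈ range J0, A w i j‖ ≤
        180 * K * ((logBall v (4 * (2 ^ L * T)) - logBall v (T / 2)) / L) * dist v w) := by
    intro v w
    set D := dist v w with hD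
    have hD0 : 0 ≤ D := dist_nonneg
    set f := logBall v with hf'
    have hf : Monotone f := logBall_mono v
    have hpair : ∀ i j, ∀ s ∈ ball v (R i j + 2 * D), ∀ t ∈ ball v (R i j + 2 * D),
        ‖ψ s - ψ t‖ ≤ K * (2 * (R i j + 2 * D) + T) := by
      intro i j s hs t ht
      rw [Finset.mem_filter] at hs ht
      refine (hψ s t).trans (mul_le_mul_of_nonneg_left ?_ hK)
      linarith [dist_triangle s v t, dist_comm s v, hs.2, ht.2]
    have hsubB : ∀ i j, ball v (R i j) ⊆ ball v (R i j + 2 * D) := fun i j s hs => by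
      rw [Finset.mem_filter] at hs ⊢; exact ⟨hs.1, by linarith [hs.2]⟩
    have hsubW : ∀ i j, ball w (R i j) ⊆ ball v (R i j + 2 * D) := fun i j s hs => by
      rw [Finset.mem_filter] at hs ⊢
      exact ⟨hs.1, by linarith [hs.2, dist_triangle v w s]⟩
    have hM0 : ∀ i j, 0 ≤ K * (2 * (R i j + 2 * D) + T) := fun i j =>
      mul_nonneg hK (by linarith [hR0 i j])
    have hterm : ∀ i j, ‖A v i j - A w i j‖ ≤ K * (2 * (R i j + 2 * D) + T) ∧
        (4 * D ≤ R i j → ‖A v i j - A w i j‖ ≤
          2 * (K * (2 * (R i j + 2 * D) + T)) * (f (R i j + 2 * D) - f (R i j - 2 * D))) := by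
      intro i j
      refine ⟨norm_favg_sub_const_le (hne v _ (hR0 i j)) ψ _ (hM0 i j) fun s hs => ?_,
        fun h4 => ?_⟩
      · rw [norm_sub_rev]
        exact norm_favg_sub_const_le (hne w _ (hR0 i j)) ψ _ (hM0 i j) fun t ht =>
          hpair i j t (hsubW i j ht) s (hsubB i j hs)
      have hIne : (ball v (R i j - 2 * D)).Nonempty := hne v _ (by linarith)
      have hIv : ball v (R i j - 2 * D) ⊆ ball v (R i j) := fun s hs => by
        rw [Finset.mem_filter] at hs ⊢; exact ⟨hs.1, by linarith [hs.2]⟩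
      have hIw : ball v (R i j - 2 * D) ⊆ ball w (R i j) := fun s hs => by
        rw [Finset.mem_filter] at hs ⊢
        exact ⟨hs.1, by linarith [hs.2, dist_triangle w v s, dist_comm w v]⟩
      have key : ∀ B : Finset V, ball v (R i j - 2 * D) ⊆ B → B ⊆ ball v (R i j + 2 * D) →
          ‖favg B ψ - favg (ball v (R i j - 2 * D)) ψ‖ ≤
            (f (R i j + 2 * D) - f (R i j - 2 * D)) * (K * (2 * (R i j + 2 * D) + T)) := by
        intro B hIB hBO
        refine (norm_favg_subset hIne hIB ψ (hM0 i j) fun a ha b hb =>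
          hpair i j a (hBO ha) b (hBO (hIB hb))).trans (mul_le_mul_of_nonneg_right ?_ (hM0 i j))
        have hi0 := hIne.card_pos
        have hB0 := (hIne.mono hIB).card_pos
        have hO0 : 0 < (ball v (R i j + 2 * D)).card := ((hIne.mono hIB).mono hBO).card_pos
        simp only [hf', logBall]
        change (1 : ℝ) - ((ball v (R i j - 2 * D)).card : ℝ) / B.card ≤
          Real.log ((max 1 (ball v (R i j + 2 * D)).card : ℕ) : ℝ) -
          Real.log ((max 1 (ball v (R i j - 2 * D)).card : ℕ) : ℝ)
        rw [max_eq_right (Nat.one_le_iff_ne_zero.2 hi0.ne'),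
          max_eq_right (Nat.one_le_iff_ne_zero.2 hO0.ne'),
          ← Real.log_div (by exact_mod_cast hO0.ne') (by exact_mod_cast hi0.ne')]
        refine le_trans ?_ (Real.one_sub_inv_le_log_of_pos (by positivity))
        rw [inv_div]
        gcongr
      have h1 := key _ hIv (hsubB i j)
      have h2 := key _ hIw (hsubW i j)
      have h3 := norm_sub_le_norm_sub_add_norm_sub (A v i j) (favg (ball v (R i j - 2 * D)) ψ)
        (A w i j)
      rw [norm_sub_rev (favg (ball v (R i j - 2 * D)) ψ) (A w i j)] at h3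
      linarith
    let g : ℕ → ℝ := fun i => f (bb i / 2)
    have hg : Monotone g := fun i i' hii => hf (by
      have := pow_le_pow_right₀ (one_le_two (α := ℝ)) hii
      simp only [bb]; gcongr)
    have hrow : ∀ i, i < L → 4 * D ≤ bb i → ∑ j ∈ range J0, ‖A v i j - A w i j‖ ≤
        (J0 : ℝ) * (K * D * (60 * (g (i + 3) - g i))) := by
      intro i hi hbig
      have hgi : 0 ≤ g (i + 3) - g i := sub_nonneg.2 (hg (by omega))
      have hb0 : 0 < bb i := hT.trans_le (hbT i)
      rcases eq_or_lt_of_le hD0 with hz | hpos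
      · calc ∑ j ∈ range J0, ‖A v i j - A w i j‖ ≤ ∑ _j ∈ range J0, (0 : ℝ) := by
              refine Finset.sum_le_sum fun j hj => ?_
              refine ((hterm i j).2 ?_).trans (le_of_eq ?_)
              · rw [← hz, mul_zero]; exact hR0 i j
              · rw [← hz]; simp
          _ = 0 := by simp
          _ ≤ _ := by positivity
      set h := bb i / J0 with hh
      have hhD : h ≤ D := by
        rw [hh, div_le_iff₀ hJp]
        have h1 : 2 ^ L * T / D ≤ ∑ v' : V, ∑ w', 2 ^ L * T / dist v' w' := by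
          refine le_trans ?_ (Finset.single_le_sum (f := fun v' : V => ∑ w', 2 ^ L * T / dist v' w')
            (fun v' _ => Finset.sum_nonneg fun w' _ => div_nonneg (by positivity) dist_nonneg)
            (Finset.mem_univ v))
          exact Finset.single_le_sum (f := fun w' => 2 ^ L * T / dist v w')
            (fun w' _ => div_nonneg (by positivity) dist_nonneg) (Finset.mem_univ w)
        have h2 : 2 ^ L * T / D ≤ (J0 : ℝ) := by
          rw [hJ0]; push_cast
          linarith [Nat.le_ceil (∑ v' : V, ∑ w', 2 ^ L * T / dist v' w')]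
        rw [div_le_iff₀ hpos] at h2
        have h3 : bb i ≤ 2 ^ L * T :=
          mul_le_mul_of_nonneg_right (pow_le_pow_right₀ one_le_two hi.le) hT.le
        linarith
      have hh0 : 0 < h := div_pos hb0 hJp
      set k := ⌈4 * D / h⌉₊ with hk
      have hk1 : 4 * D ≤ (k : ℝ) * h := by
        rw [← div_le_iff₀ hh0]; exact Nat.le_ceil _
      have hk2 : (k : ℝ) * h ≤ 5 * D := by
        have := (Nat.ceil_lt_add_one (div_nonneg (by linarith : (0 : ℝ) ≤ 4 * D) hh0.le)).le
        rw [← hk] at this
        have h2 := mul_le_mul_of_nonneg_right this hh0.le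
        rw [add_mul, div_mul_cancel₀ _ hh0.ne'] at h2
        linarith
      let F : ℕ → ℝ := fun j => f (bb i + j * h - 2 * D)
      have hRj : ∀ j, R i j = bb i + j * h := fun j => by
        simp only [R, bb, hh]; field_simp
      have hFmono : Monotone F := fun j j' hjj => hf (by
        have : (j : ℝ) ≤ j' := by exact_mod_cast hjj
        nlinarith)
      have hFtel : F (J0 + k) - F 0 ≤ g (i + 3) - g i := by
        refine sub_le_sub (hf ?_) (hf ?_)
        · push_cast
          have : bb (i + 3) / 2 = 4 * bb i := by simp only [bb]; ring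
          rw [this]
          have : (J0 : ℝ) * h = bb i := by rw [hh]; field_simp
          linarith
        · push_cast; linarith
      calc ∑ j ∈ range J0, ‖A v i j - A w i j‖
          ≤ ∑ j ∈ range J0, 12 * K * bb i * (F (j + k) - F j) := by
            refine Finset.sum_le_sum fun j hj => ?_
            rw [Finset.mem_range] at hj
            have h4 : 4 * D ≤ R i j := hbig.trans (hlo i j)
            refine ((hterm i j).2 h4).trans ?_
            have hΔ : f (R i j + 2 * D) - f (R i j - 2 * D) ≤ F (j + k) - F j := by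
              refine sub_le_sub (hf ?_) (le_of_eq ?_)
              · rw [hRj]; push_cast; linarith
              · simp only [F, hRj]
            have hΔ0 : 0 ≤ f (R i j + 2 * D) - f (R i j - 2 * D) :=
              sub_nonneg.2 (hf (by linarith))
            refine mul_le_mul ?_ hΔ hΔ0 (by positivity)
            have := mul_le_mul_of_nonneg_left
              (show 2 * (R i j + 2 * D) + T ≤ 6 * bb i by linarith [hhi i j hj, hbT i]) hK
            linarith
        _ = 12 * K * bb i * ∑ j ∈ range J0, (F (j + k) - F j) := by rw [Finset.mul_sum]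
        _ ≤ 12 * K * bb i * (k * (F (J0 + k) - F 0)) := by
            gcongr; exact sum_shift_le hFmono J0 k
        _ = 12 * K * J0 * ((k : ℝ) * h) * (F (J0 + k) - F 0) := by rw [hh]; field_simp
        _ ≤ 12 * K * J0 * (5 * D) * (g (i + 3) - g i) := by
            refine mul_le_mul (mul_le_mul_of_nonneg_left hk2 (by positivity)) hFtel
              (sub_nonneg.2 (hFmono (Nat.zero_le _))) (by positivity)
        _ = (J0 : ℝ) * (K * D * (60 * (g (i + 3) - g i))) := by ring
    have hsum : ∑ i ∈ range L, (g (i + 3) - g i) ≤ 3 * (f (4 * (2 ^ L * T)) - f (T / 2)) := by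
      refine (sum_shift_le hg L 3).trans (le_of_eq ?_)
      simp only [g, bb]
      push_cast
      ring_nf
    have hnorm : ∀ E : ℝ, (∑ i ∈ range L, ∑ j ∈ range J0, ‖A v i j - A w i j‖ ≤ (J0 : ℝ) * E) →
        ‖(((L : ℝ) * J0)⁻¹ • ∑ i ∈ range L, ∑ j ∈ range J0, A v i j) -
          ((L : ℝ) * J0)⁻¹ • ∑ i ∈ range L, ∑ j ∈ range J0, A w i j‖ ≤ E / L := by
      intro E h
      rw [← smul_sub, ← Finset.sum_sub_distrib]
      simp only [← Finset.sum_sub_distrib]
      rw [norm_smul, norm_inv, Real.norm_of_nonneg (by positivity),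
        inv_mul_le_iff₀ (by positivity)]
      refine ((norm_sum_le _ _).trans (Finset.sum_le_sum fun i _ => norm_sum_le _ _)).trans
        (h.trans (le_of_eq ?_))
      field_simp
    constructor
    · refine (hnorm (K * D * (24 * L + 180 * Real.log (Fintype.card V))) ?_).trans (le_of_eq ?_)
      · calc ∑ i ∈ range L, ∑ j ∈ range J0, ‖A v i j - A w i j‖
            ≤ ∑ i ∈ range L, (J0 : ℝ) * (K * D * (24 + 60 * (g (i + 3) - g i))) := by
              refine Finset.sum_le_sum fun i hi => ?_
              have hgi : 0 ≤ g (i + 3) - g i := sub_nonneg.2 (hg (by omega))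
              rcases lt_or_ge (bb i) (4 * D) with hsmall | hbig
              · calc ∑ j ∈ range J0, ‖A v i j - A w i j‖ ≤ ∑ _j ∈ range J0, K * D * 24 := by
                      refine Finset.sum_le_sum fun j hj => ?_
                      rw [Finset.mem_range] at hj
                      refine (hterm i j).1.trans ?_
                      rw [mul_assoc K D]
                      exact mul_le_mul_of_nonneg_left (by linarith [hhi i j hj, hbT i]) hK
                  _ = (J0 : ℝ) * (K * D * 24) := by simp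
                  _ ≤ _ := by gcongr; linarith
              · refine (hrow i (Finset.mem_range.1 hi) hbig).trans ?_
                gcongr
                linarith
          _ = (J0 : ℝ) * (K * D * (24 * L + 60 * ∑ i ∈ range L, (g (i + 3) - g i))) := by
              rw [← Finset.mul_sum, ← Finset.mul_sum, Finset.sum_add_distrib, ← Finset.mul_sum,
                Finset.sum_const, Finset.card_range, nsmul_eq_mul, mul_comm (L : ℝ) 24]
          _ ≤ (J0 : ℝ) * (K * D * (24 * L + 180 * Real.log (Fintype.card V))) := by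
              have h1 : f (4 * (2 ^ L * T)) ≤ Real.log (Fintype.card V) := logBall_le v _
              have h2 : 0 ≤ f (T / 2) := logBall_nonneg v _
              exact mul_le_mul_of_nonneg_left
                (mul_le_mul_of_nonneg_left (by linarith [hsum]) (mul_nonneg hK hD0)) hJp.le
      · field_simp
    · intro hTD
      refine (hnorm (K * D * (180 * (f (4 * (2 ^ L * T)) - f (T / 2)))) ?_).trans (le_of_eq ?_)
      · calc ∑ i ∈ range L, ∑ j ∈ range J0, ‖A v i j - A w i j‖
            ≤ ∑ i ∈ range L, (J0 : ℝ) * (K * D * (60 * (g (i + 3) - g i))) :=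
              Finset.sum_le_sum fun i hi => hrow i (Finset.mem_range.1 hi) (hTD.trans (hbT i))
          _ = (J0 : ℝ) * (K * D * (60 * ∑ i ∈ range L, (g (i + 3) - g i))) := by
              rw [← Finset.mul_sum, ← Finset.mul_sum, ← Finset.mul_sum]
          _ ≤ (J0 : ℝ) * (K * D * (180 * (f (4 * (2 ^ L * T)) - f (T / 2)))) :=
              mul_le_mul_of_nonneg_left
                (mul_le_mul_of_nonneg_left (by linarith [hsum]) (mul_nonneg hK hD0)) hJp.le
      · field_simp
  exact ⟨fun v w => (hpairwise v w).1, fun v w => (hpairwise v w).2, hnear⟩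

end Vale.Agent.P249.Pow
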